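import Crest.Agent.X212.Lk34.Eta
import Crest.Agent.X212.Dfl49.Wk

/-! # Row 212, LIX-KER (helper50): from complex one-forms to kernel elements -/

set_option autoImplicit false
set_option linter.unusedSectionVars false
noncomputable section
open Set Function Filter Topology MeasureTheory
open scoped ContDiff Manifold InnerProductSpace

namespace Crest.Agent.X212.Kb50
open An hiding cm
open Sob92 Wz78 Rdc90 Map77 Nk89 Dfl49 Lk34
open Lns95 (dv_re dv_im)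
open Line51 (fsm_re fsm_im)

variable {E : Type} [NormedAddCommGroup E] [NormedSpace ℝ E] [FiniteDimensional ℝ E]
  [MeasurableSpace E] [BorelSpace E]
  {HM : Type} [TopologicalSpace HM] {I : ModelWithCorners ℝ E HM} [I.Boundaryless]
  {M : Type} [TopologicalSpace M] [ChartedSpace HM M] [IsManifold I ∞ M] [MeasurableSpace M]
  [T2Space M] [BorelSpace M] [SecondCountableTopology M] {ι lam β : Type} [Fintype ι] [Fintype lam]

/-- `(d + i A) θ` is anti-self-dual and trace free, `θ ⊥ dψ` -/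
structure Fz (B : Base M ι lam) (F : Fr I M ι) (ψ : M → ℝ) (O : Set M) (A : ι → M → ℝ)
    (θ : ι → M → ℂ) : Prop where
  sm : ∀ x ∈ O, ∀ a, SA I (θ a) x
  pr : ∀ x ∈ O, ∀ a, ∑ b, B.P a b x • θ b x = θ a x
  c : ∀ x ∈ O, ∀ t, ∑ s, B.sd x t s • (d1 I F.e F.c θ s.1 s.2 x +
    Complex.I * (A s.1 x * θ s.2 x - A s.2 x * θ s.1 x)) = 0
  r : ∀ x ∈ O, ∑ a, (F.D a (θ a) x + F.dv a x • θ a x + Complex.I * (A a x * θ a x)) = 0
  w : ∀ x ∈ O, ∑ a, F.D a ψ x • θ a x = 0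

section loc
variable {V : Type} [NormedAddCommGroup V] [InnerProductSpace ℝ V] [CompleteSpace V]

/-- `cm` as a linear map -/
def cl (J : V →L[ℝ] V) (v : V) : ℂ →ₗ[ℝ] V :=
  Complex.reLm.smulRight v + Complex.imLm.smulRight (J v)

theorem cm_cl (J : V →L[ℝ] V) (z : ℂ) (v : V) : cm J z v = cl J v z := rfl

variable {F : Fr I M ι} {Ω : Set M} {A : ι → M → V →L[ℝ] V} {Q J : M → V →L[ℝ] V}
  {O : β → Set M} {α : β → ι → M → ℝ} {g : β → β → M → ℂ} {x : M} {η : M → V} {a : ι → M → ℝ}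
  (T : Tc F Ω A Q J O α g) (hx : x ∈ Ω) (p : Pl F A Q J a η x)
include T hx p

theorem sa_cm {z : M → ℂ} (s : SA I z x) : SA I (fun y => cm (J y) (z y) (η y)) x :=
  (SA.smul (fsm_re s) p.sm).add (SA.smul (fsm_im s) (T.pl_J hx p).sm)

theorem q_cm (z : ℂ) : Q x (cm (J x) z (η x)) = cm (J x) z (η x) := by
  simp only [cm, map_add, map_smul, p.mem, (T.pl_J hx p).mem]

theorem nab_cm {z : M → ℂ} (s : SA I z x) (k : ι) : nab I F.e A k (fun y => cm (J y) (z y) (η y)) x =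
    cl (J x) (η x) (dv I (F.e k) z x + Complex.I * (a k x * z x)) := by
  have q := T.pl_J hx p
  have j := T.JJ x hx _ p.mem
  rw [← cm_cl]
  unfold cm
  rw [nab_add k (SA.smul (fsm_re s) p.sm) (SA.smul (fsm_im s) q.sm), nab_smul k (fsm_re s) p.sm,
    nab_smul k (fsm_im s) q.sm, dv_re s, dv_im s, p.par, q.par]
  simp only [j, Complex.add_re, Complex.add_im, Complex.mul_re, Complex.mul_im, Complex.ofReal_re,
    Complex.ofReal_im, Complex.I_re, Complex.I_im]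
  module

end loc

variable {B : Base M ι lam} {G : Geo I M ι lam} {m : Md M ι lam} {W : m.Cn} {Ω : Set M}
  {G' : Fr I M ι} {ψ : M → ℝ} {Q J : M → m.A →L[ℝ] m.A} {O : β → Set M} {α : β → ι → M → ℝ}
  {g : β → β → M → ℂ} {r : ℝ} {η : β → M → m.A} {θ : β → ι → M → ℂ}
  (hB : B.OK I) (hG : G.OK B) (H : m.OK I B) (c : m.IsConn B G W) (hc : IsClopen Ω)
  (w : Wt G.F G' ψ) (T : Tc G.F Ω (adw W) Q J O α g)
  (hQ : ∀ x ∈ Ω, ∀ v, Q x v = v → m.pg x v = v) (p : Et G.F (adw W) Q J O α g r η)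
include hB hG H c hc w T hQ p

theorem one (hθ : ∀ b, Fz B G.F ψ (O b) (α b) (θ b))
    (tr : ∀ b b', ∀ y ∈ O b ∩ O b', ∀ a, θ b a y = θ b' a y * g b b' y) :
    ∃ u : M → Cf ι (Fin m.N), Sm I u ∧ (∀ x, (ind (bdOf B m) Ω ∅).pC x (u x) = u x) ∧
      ((ind (bdOf B m) Ω ∅).full G' (base W 0)).app G' u = 0 ∧ (∀ x, fp (u x) = 0) ∧
      (∀ x ∉ Ω, fa (u x) = 0) ∧ ∀ b, ∀ x ∈ O b, ∀ a, fa (u x) a = cm (J x) (θ b a x) (η b x) := by
  classical
  obtain ⟨v, v0, v1⟩ : ∃ v : ι → M → m.A, (∀ x ∉ Ω, ∀ a, v a x = 0) ∧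
      ∀ b, ∀ x ∈ O b, ∀ a, v a x = cm (J x) (θ b a x) (η b x) := by
    refine ⟨fun a x => if h : x ∈ Ω then cm (J x) (θ ((T.cov x).1 h).choose a x)
      (η ((T.cov x).1 h).choose x) else 0, fun x hx a => dif_neg hx, fun b x hx a => ?_⟩
    have k := ((T.cov x).1 (T.sub hx)).choose_spec
    simp only [dif_pos (T.sub hx)]
    rw [p.tr _ b x ⟨k, hx⟩, cm_cm (T.JJ x (T.sub hx) _ (p.pl _ x k).mem), tr _ b x ⟨k, hx⟩]
  have e0 : ∀ x ∉ Ω, ∀ a, v a =ᶠ[𝓝 x] fun _ => 0 := fun x hx a =>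
    (hc.1.isOpen_compl.eventually_mem hx).mono fun y hy => v0 y hy a
  have e1 : ∀ b, ∀ x ∈ O b, ∀ a, v a =ᶠ[𝓝 x] fun y => cm (J y) (θ b a y) (η b y) := fun b x hx a =>
    ((T.op b).eventually_mem hx).mono fun y hy => v1 b y hy a
  have n1 : ∀ b, ∀ x ∈ O b, ∀ k a, nab I G.F.e (adw W) k (v a) x = cl (J x) (η b x)
      (dv I (G.F.e k) (θ b a) x + Complex.I * (α b k x * θ b a x)) := fun b x hx k a =>
    (nab_congr k (e1 b x hx a)).trans (nab_cm T (T.sub hx) (p.pl b x hx) ((hθ b).sm x hx a) k)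
  have sv : Sm I fun x => i1 _ (Eu (Fin m.N)) (WithLp.toLp 2 fun a => v a x : Fm ι m.A) := fun x => by
    refine SA.clm _ (SA.toLp fun a => ?_)
    by_cases hx : x ∈ Ω
    · obtain ⟨b, hb⟩ := (T.cov x).1 hx
      exact (sa_cm T hx (p.pl b x hb) ((hθ b).sm x hb a)).congr_of_eventuallyEq (e1 b x hb a)
    · exact contMDiffAt_const.congr_of_eventuallyEq (e0 x hx a)
  have pg : ∀ b, ∀ x ∈ O b, ∀ z, m.pg x (cl (J x) (η b x) z) = cl (J x) (η b x) z := fun b x hx z =>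
    hQ x (T.sub hx) _ (q_cm T (T.sub hx) (p.pl b x hx) z)
  have pu : ∀ x, (ind (bdOf B m) Ω ∅).pC x (i1 _ _ (WithLp.toLp 2 fun a => v a x : Fm ι m.A)) =
      i1 _ _ (WithLp.toLp 2 fun a => v a x) := fun x => by
    refine ext2 (fm_ext fun a => ?_) (by simp)
    by_cases hx : x ∈ Ω
    · obtain ⟨b, hb⟩ := (T.cov x).1 hx
      simp only [f2_ps, f2_i1, ind, Map77.idx_apply, indicator_of_mem hx, v1 b x hb, cm_cl, bdOf,
        pg b x hb, ← map_smul, ← map_sum, (hθ b).pr x hb]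
    · simp [ind, v0 x hx]
  have C0 := (cp_of hB hG H c).ind hc isClopen_empty
  have cp := cpw C0 w
  have R := riem_of_vol hG.vol
  refine ⟨_, sv, pu, funext fun x => ?_, fun x => rfl, fun x hx => fm_ext (v0 x hx), v1⟩
  have p1 : ∀ k, ∑ l, G.F.P k l x • v l x = v k x := C0.P_fa (pu x)
  refine ext2 ?_ (ext2 ?_ ?_)
  · rw [cp.full_row (sv x) pu]
    simp only [dft_wt w R, w.e, f2_i1, s2_i1]
    rw [← dv1_cov (lc_gam G.F) (frm G.F) (fun k => dv_gam hG.vol x k) p1]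
    by_cases hx : x ∈ Ω
    · obtain ⟨b, hb⟩ := (T.cov x).1 hx
      have a1 := congrArg (cl (J x) (η b x)) ((hθ b).r x hb)
      have a2 := congrArg (cl (J x) (η b x)) ((hθ b).w x hb)
      simp only [map_sum, map_add, map_smul, map_zero, Pre.D_def] at a1 a2
      have a3 : ∀ k, G.F.D k (fun y => 2 * ψ y) x = 2 * G.F.D k ψ x := fun k =>
        congrFun (G.F.D_smul w.sm 2 k) x
      simp only [dv1, n1 b x hb, v1 b x hb, cm_cl, map_add, a3, mul_smul, ← Finset.smul_sum, Pre.D_def,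
        a2, add_right_comm _ (cl _ _ (Complex.I * _)), a1]
      simp [rk1]
    · simp [dv1, v0 x hx, nab, rk1, dv_congr (e0 x hx _)]
  · rw [cp.full_dir (sv x) pu]; simp [dir, nab]
  · rw [cp.full_crv (sv x) pu]
    simp only [w.e, f2_i1, s2_i1, ← ed_cov (lc_gam G.F) p1]
    refine fm_ext fun t => ?_
    by_cases hx : x ∈ Ω
    · obtain ⟨b, hb⟩ := (T.cov x).1 hx
      have a1 := congrArg (cl (J x) (η b x)) ((hθ b).c x hb t)
      have a2 : ∀ s : ι × ι, ed I G.F.e G.F.c (adw W) v s.1 s.2 x = cl (J x) (η b x) (d1 I G.F.e G.F.c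
          (θ b) s.1 s.2 x + Complex.I * (α b s.1 x * θ b s.2 x - α b s.2 x * θ b s.1 x)) := fun s => by
        simp only [ed, d1, n1 b x hb, v1 b x hb, cm_cl, mul_sub, map_add, map_sub, map_sum, map_smul]
        abel
      rw [map_sum, map_zero] at a1
      simp only [map_smul] at a1
      simpa [ind, hx, a2, rk1, bdOf, pg b x hb] using! a1
    · simp [ind, hx]

theorem kw (hr : r ≠ 0) (hθ : ∀ b, Fz B G.F ψ (O b) (α b) (θ b))
    (tr : ∀ b b', ∀ y ∈ O b ∩ O b', ∀ a, θ b a y = θ b' a y * g b b' y) (N : M → ℝ)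
    (hN : ∀ b, ∀ x ∈ O b, ∑ a, ‖θ b a x‖ ^ 2 ≤ N x)
    (hi : IntegrableOn (fun x => Real.exp (2 * ψ x) * N x) Ω G.F.μ)
    (ne : ∃ b, ∃ x ∈ O b, ∃ a, θ b a x ≠ 0) :
    ∃ u : Fin 2 → M → Cf ι (Fin m.N), LinearIndependent ℝ u ∧ ∀ i, Sm I (u i) ∧
      Integrable (fun x => Real.exp (2 * ψ x) * ‖u i x‖ ^ 2) G.F.μ ∧
      (∀ x, (ind (bdOf B m) Ω ∅).pC x (u i x) = u i x) ∧
      ((ind (bdOf B m) Ω ∅).full G' (base W 0)).app G' (u i) = 0 := by
  have K : ∀ {η : β → M → m.A} {u : M → Cf ι (Fin m.N)}, Et G.F (adw W) Q J O α g r η → Sm I u →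
      (∀ x, fp (u x) = 0) → (∀ x ∉ Ω, fa (u x) = 0) →
      (∀ b, ∀ x ∈ O b, ∀ a, fa (u x) a = cm (J x) (θ b a x) (η b x)) →
      Integrable (fun x => Real.exp (2 * ψ x) * ‖u x‖ ^ 2) G.F.μ := fun {η u} p s a1 a2 a3 => by
    refine ((integrable_indicator_iff hc.2.measurableSet).2 (hi.const_mul (r ^ 2))).mono'
      (((sm_exp (contMDiff_const.mul w.sm)).continuous.mul
        (s.continuous.norm.pow 2)).aestronglyMeasurable) (.of_forall fun x => ?_)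
    have n : ‖u x‖ ^ 2 = ∑ a, ‖fa (u x) a‖ ^ 2 := by
      rw [WithLp.prod_norm_sq_eq_of_L2, ← PiLp.norm_sq_eq_of_L2]
      exact (congrArg (_ + ‖·‖ ^ 2) (a1 x)).trans (by simp; rfl)
    rw [Real.norm_of_nonneg (by positivity), n]
    by_cases hx : x ∈ Ω
    · obtain ⟨b, hb⟩ := (T.cov x).1 hx
      simp only [indicator_of_mem hx, a3 b x hb, norm_cm (T.Jk x hx) (T.JJ x hx _ (p.pl b x hb).mem),
        p.nm b x hb, mul_pow, ← Finset.sum_mul]
      nlinarith [mul_le_mul_of_nonneg_left (hN b x hb) (mul_pos (Real.exp_pos (2 * ψ x))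
        (sq_pos_of_ne_zero hr)).le]
    · simp [hx, a2 x hx]
  obtain ⟨u, a1, a2, a3, a4, a5, a6⟩ := one hB hG H c hc w T hQ p hθ tr
  obtain ⟨v, b1, b2, b3, b4, b5, b6⟩ := one hB hG H c hc w T hQ (T.et_J p) hθ tr
  refine ⟨![u, v], LinearIndependent.pair_iff.2 fun s t e => ?_, fun i => ?_⟩
  · obtain ⟨b, x, hx, a, ha⟩ := ne
    have j := T.JJ x (T.sub hx) _ (p.pl b x hx).mem
    have k := congrArg (fun f : M → Cf ι (Fin m.N) => ‖fa (f x) a‖) e
    have : s • cm (J x) (θ b a x) (η b x) + t • cm (J x) (θ b a x) (J x (η b x)) =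
        cm (J x) (⟨s, t⟩ * θ b a x) (η b x) := by
      simp only [cm, j, Complex.mul_re, Complex.mul_im]; module
    simp only [Pi.add_apply, Pi.smul_apply, map_add, map_smul, PiLp.add_apply, PiLp.smul_apply,
      a6 b x hx, b6 b x hx, this, norm_cm (T.Jk x (T.sub hx)) j, p.nm b x hx, Pi.zero_apply, map_zero,
      PiLp.zero_apply, norm_zero, mul_eq_zero, hr, or_false, norm_eq_zero, ha] at k
    exact ⟨congrArg Complex.re k, congrArg Complex.im k⟩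
  · fin_cases i
    exacts [⟨a1, K p a1 a4 a5 a6, a2, a3⟩, ⟨b1, K (T.et_J p) b1 b4 b5 b6, b2, b3⟩]

end Crest.Agent.X212.Kb50
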